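import Mathlib

/-!
# Kernel-checked positivity of bivariate integer polynomials on rectangles

A bivariate polynomial with integer coefficients is a list of rows (`List (List ℤ)`, the `j`-th
row is the coefficient of `y^j`, itself a list of coefficients in `x`).  On a half-open rectangle
`h0 ≤ hd x < h1`, `k0 ≤ kd y < k1` positivity is certified by the (scaled) Bernstein coefficients:
the polynomial is homogenised, the substitution `x = (h0 + h1 S)/(hd (1+S))`,
`y = (k0 + k1 T)/(kd (1 + T))` is made, and the resulting polynomial in `S, T` is evaluated at the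
single integer point `S = 2^w`, `T = 2^(w (d1+1))` (Kronecker substitution); nonnegativity of all
its coefficients is one bitwise `and`.
-/

open Polynomial

namespace P100
namespace BoxPos

/-! ## generic homogenised Horner evaluation -/

/-- `∑ g_i K^i W^(k-i)` -/
def homG {R : Type*} [CommSemiring R] (K W : R) : ℕ → List R → R
  | _, [] => 0
  | 0, g :: _ => g
  | k + 1, g :: gs => g * W ^ (k + 1) + K * homG K W k gs

/-- plain Horner evaluation -/
def evG {R : Type*} [CommSemiring R] (x : R) : List R → R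
  | [] => 0
  | g :: gs => g + x * evG x gs

theorem map_homG {R S : Type*} [CommSemiring R] [CommSemiring S] (f : R →+* S) (K W : R) :
    ∀ (k : ℕ) (gs : List R), f (homG K W k gs) = homG (f K) (f W) k (gs.map f)
  | _, [] => by simp only [homG, map_zero, List.map_nil]
  | 0, g :: _ => by simp [homG]
  | k + 1, g :: gs => by
    simp only [homG, map_add, map_mul, map_pow, map_homG f K W k gs, List.map_cons]

theorem homG_eq {K W : ℝ} (hW : W ≠ 0) :
    ∀ (k : ℕ) (gs : List ℝ), gs.length ≤ k + 1 → homG K W k gs = W ^ k * evG (K / W) gs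
  | _, [], _ => by simp only [homG, evG, mul_zero]
  | 0, g :: gs, h => by
    have : gs = [] := by
      cases gs with
      | nil => rfl
      | cons a b => simp only [List.length_cons, zero_add, add_le_iff_nonpos_left, nonpos_iff_eq_zero, Nat.add_eq_zero_iff, List.length_eq_zero_iff, one_ne_zero, and_false] at h
    subst this
    simp [homG, evG]
  | k + 1, g :: gs, h => by
    have h' : gs.length ≤ k + 1 := by simpa only [List.length_cons, add_le_add_iff_right] using h
    simp only [homG, evG, homG_eq hW k gs h']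
    field_simp
    ring

/-! ## coefficient positivity from one packed value -/

/-- inner degree bound -/
def DegS (d : ℕ) (G : ℕ[X][X]) : Prop := ∀ j, (G.coeff j).natDegree ≤ d

theorem DegS.add {d : ℕ} {F G : ℕ[X][X]} (hF : DegS d F) (hG : DegS d G) : DegS d (F + G) :=
  fun j => by
    rw [coeff_add]
    exact (natDegree_add_le _ _).trans (max_le (hF j) (hG j))

theorem DegS.mul {a b : ℕ} {F G : ℕ[X][X]} (hF : DegS a F) (hG : DegS b G) :
    DegS (a + b) (F * G) := fun j => by
  rw [coeff_mul]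
  refine natDegree_sum_le_of_forall_le _ _ fun x _ => ?_
  exact natDegree_mul_le.trans (add_le_add (hF _) (hG _))

theorem DegS.pow {G : ℕ[X][X]} (hG : DegS 0 G) : ∀ k, DegS 0 (G ^ k)
  | 0 => fun j => by
    rw [pow_zero, coeff_one]
    split <;> simp
  | k + 1 => by
    rw [pow_succ]
    exact (DegS.pow hG k).mul hG

theorem DegS.mono {a b : ℕ} (h : a ≤ b) {G : ℕ[X][X]} (hG : DegS a G) : DegS b G :=
  fun j => (hG j).trans h

theorem DegS.C {d : ℕ} {g : ℕ[X]} (hg : g.natDegree ≤ d) : DegS d (C g) := fun j => by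
  rw [coeff_C]
  split
  · exact hg
  · simp only [natDegree_zero, zero_le]

/-- packing homomorphism `S ↦ B`, `T ↦ Q` -/
noncomputable def pk (B Q : ℕ) : ℕ[X][X] →+* ℕ := eval₂RingHom (evalRingHom B) Q

/-- real evaluation -/
noncomputable def evr (s t : ℝ) : ℕ[X][X] →+* ℝ :=
  eval₂RingHom (eval₂RingHom (Nat.castRingHom ℝ) s) t

theorem coeff_le_eval_one (p : ℕ[X]) (i : ℕ) : p.coeff i ≤ p.eval 1 := by
  rw [eval_eq_sum_range]
  by_cases h : i ≤ p.natDegree
  · calc p.coeff i = p.coeff i * 1 ^ i := by simp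
      _ ≤ _ := Finset.single_le_sum (f := fun i => p.coeff i * 1 ^ i)
        (fun _ _ => Nat.zero_le _) (Finset.mem_range.mpr (Nat.lt_succ_of_le h))
  · rw [coeff_eq_zero_of_natDegree_lt (not_le.mp h)]
    exact Nat.zero_le _

theorem coeff_le_pk_one (G : ℕ[X][X]) (i j : ℕ) : (G.coeff j).coeff i ≤ pk 1 1 G := by
  refine (coeff_le_eval_one _ i).trans ?_
  have : pk 1 1 G = ∑ k ∈ Finset.range (G.natDegree + 1), (G.coeff k).eval 1 * 1 ^ k := by
    simp only [pk, coe_eval₂RingHom, eval₂_eq_sum_range, coe_evalRingHom]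
  rw [this]
  by_cases h : j ≤ G.natDegree
  · calc (G.coeff j).eval 1 = (G.coeff j).eval 1 * 1 ^ j := by simp
      _ ≤ _ := Finset.single_le_sum (f := fun k => (G.coeff k).eval 1 * 1 ^ k)
        (fun _ _ => Nat.zero_le _) (Finset.mem_range.mpr (Nat.lt_succ_of_le h))
  · rw [coeff_eq_zero_of_natDegree_lt (not_le.mp h)]
    simp only [eval_zero, one_pow, mul_one, zero_le]

/-- flattening of a double sum -/
theorem sum_flat (D : ℕ) (f : ℕ → ℕ) : ∀ J : ℕ,
    ∑ k ∈ Finset.range (D * J), f k = ∑ j ∈ Finset.range J, ∑ i ∈ Finset.range D, f (D * j + i)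
  | 0 => by simp
  | J + 1 => by
    rw [Nat.mul_succ, Finset.sum_range_add, sum_flat D f J, Finset.sum_range_succ]

/-- flattened coefficient function -/
noncomputable def fl (D : ℕ) (G : ℕ[X][X]) (k : ℕ) : ℕ := (G.coeff (k / D)).coeff (k % D)

theorem pk_eq_flat {D B d J : ℕ} (hD : d < D) {G : ℕ[X][X]} (hG : DegS d G)
    (hJ : G.natDegree < J) :
    pk B (B ^ D) G = ∑ k ∈ Finset.range (D * J), fl D G k * B ^ k := by
  have hDpos : 0 < D := lt_of_le_of_lt (Nat.zero_le _) hD
  rw [sum_flat]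
  have h1 : pk B (B ^ D) G = ∑ j ∈ Finset.range J, (G.coeff j).eval B * (B ^ D) ^ j := by
    simp only [pk, coe_eval₂RingHom]
    rw [eval₂_eq_sum_range' (evalRingHom B) hJ]
    simp only [coe_evalRingHom]
  rw [h1]
  refine Finset.sum_congr rfl fun j _ => ?_
  rw [eval_eq_sum_range' (lt_of_le_of_lt (hG j) hD), Finset.sum_mul]
  refine Finset.sum_congr rfl fun i hi => ?_
  have hi' := Finset.mem_range.mp hi
  have e1 : (D * j + i) / D = j := by
    rw [Nat.mul_add_div hDpos, Nat.div_eq_of_lt hi', add_zero]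
  have e2 : (D * j + i) % D = i := by
    rw [Nat.mul_add_mod, Nat.mod_eq_of_lt hi']
  simp only [fl, e1, e2]
  rw [mul_assoc, ← pow_mul, ← pow_add, add_comm i]

theorem uniq (B : ℕ) : ∀ (n : ℕ) (a b : ℕ → ℕ), (∀ k < n, a k < B) → (∀ k < n, b k < B) →
    ∑ k ∈ Finset.range n, a k * B ^ k = ∑ k ∈ Finset.range n, b k * B ^ k →
    ∀ k < n, a k = b k
  | 0, _, _, _, _, _ => fun k hk => absurd hk (Nat.not_lt_zero k)
  | n + 1, a, b, ha, hb, h => by
    have e : ∀ c : ℕ → ℕ, ∑ k ∈ Finset.range (n + 1), c k * B ^ k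
        = c 0 + B * ∑ k ∈ Finset.range n, c (k + 1) * B ^ k := fun c => by
      rw [Finset.sum_range_succ', Finset.mul_sum, pow_zero, mul_one, add_comm]
      congr 1
      refine Finset.sum_congr rfl fun k _ => ?_
      ring
    rw [e, e] at h
    have hB : 0 < B := lt_of_le_of_lt (Nat.zero_le _) (ha 0 n.succ_pos)
    have h0 : a 0 = b 0 := by
      have := congrArg (· % B) h
      simpa only [Nat.add_mul_mod_self_left, Nat.mod_eq_of_lt (ha 0 n.succ_pos),     Nat.mod_eq_of_lt (hb 0 n.succ_pos)] using this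
    have h1 : ∑ k ∈ Finset.range n, a (k + 1) * B ^ k
        = ∑ k ∈ Finset.range n, b (k + 1) * B ^ k := by
      rw [h0] at h
      exact Nat.eq_of_mul_eq_mul_left hB (Nat.add_left_cancel h)
    have ih := uniq B n (fun k => a (k + 1)) (fun k => b (k + 1))
      (fun k hk => ha _ (Nat.succ_lt_succ hk)) (fun k hk => hb _ (Nat.succ_lt_succ hk)) h1
    intro k hk
    cases k with
    | zero => exact h0
    | succ k => exact ih k (Nat.lt_of_succ_lt_succ hk)

theorem sum_lt (B : ℕ) (hB : 0 < B) (a : ℕ → ℕ) : ∀ n : ℕ, (∀ k < n, a k < B) →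
    ∑ k ∈ Finset.range n, a k * B ^ k < B ^ n
  | 0, _ => by simp only [Finset.range_zero, Finset.sum_empty, pow_zero, Order.lt_one_iff]
  | n + 1, h => by
    rw [Finset.sum_range_succ]
    have h1 := sum_lt B hB a n fun k hk => h k (Nat.lt_succ_of_lt hk)
    have h2 : a n + 1 ≤ B := h n n.lt_succ_self
    calc _ < B ^ n + a n * B ^ n := by omega
      _ = (a n + 1) * B ^ n := by ring
      _ ≤ B * B ^ n := Nat.mul_le_mul_right _ h2
      _ = B ^ (n + 1) := by ring

theorem digits_sum (B : ℕ) (v : ℕ) : ∀ n : ℕ,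
    ∑ k ∈ Finset.range n, (v / B ^ k % B) * B ^ k = v % B ^ n
  | 0 => by simp only [Finset.range_zero, Finset.sum_empty, pow_zero, Nat.mod_one]
  | n + 1 => by
    rw [Finset.sum_range_succ, digits_sum B v n, Nat.mod_pow_succ, mul_comm (B ^ n)]

/-- the mask with bits `w k + (w - 1)`, `k < n` -/
def mask (w : ℕ) : ℕ → ℕ
  | 0 => 0
  | n + 1 => 2 ^ (w - 1) + 2 ^ w * mask w n

theorem testBit_mask (w : ℕ) (hw : 0 < w) : ∀ n k, k < n → (mask w n).testBit (w * k + (w - 1)) = true
  | 0, k, h => absurd h (Nat.not_lt_zero k)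
  | n + 1, 0, _ => by
    simp only [mask, mul_zero, zero_add]
    rw [add_comm, Nat.testBit_two_pow_mul_add _ (Nat.pow_lt_pow_right (by norm_num) (by omega))]
    rw [if_pos (by omega)]
    exact Nat.testBit_two_pow_self
  | n + 1, k + 1, h => by
    simp only [mask]
    rw [add_comm, Nat.testBit_two_pow_mul_add _ (Nat.pow_lt_pow_right (by norm_num) (by omega))]
    rw [if_neg (by rw [Nat.mul_succ]; omega)]
    have := testBit_mask w hw n k (Nat.lt_of_succ_lt_succ h)
    rw [← this]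
    congr 1
    rw [Nat.mul_succ]
    (clear * - hw; omega)

theorem digit_lt {w : ℕ} (hw : 0 < w) {v n : ℕ} (h : Nat.land v (mask w n) = 0) {k : ℕ}
    (hk : k < n) : v / (2 ^ w) ^ k % 2 ^ w < 2 ^ (w - 1) := by
  refine Nat.lt_pow_two_of_testBit _ fun i hi => ?_
  rw [Nat.testBit_mod_two_pow, ← pow_mul, Nat.testBit_div_two_pow]
  by_cases hiw : i < w
  · have : i = w - 1 := by omega
    subst this
    have h1 : (Nat.land v (mask w n)).testBit (w * k + (w - 1)) = false := by
      rw [h]; exact Nat.zero_testBit _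
    have h2 : (Nat.land v (mask w n)).testBit (w * k + (w - 1))
        = (v.testBit (w * k + (w - 1)) && (mask w n).testBit (w * k + (w - 1))) :=
      Nat.testBit_and _ _ _
    rw [h2, testBit_mask w hw n k hk, Bool.and_true] at h1
    rw [add_comm (w - 1)]
    simp only [tsub_lt_self_iff, Order.lt_one_iff, and_true, h1, Bool.and_false]
  · simp [hiw]

/-- **Main uniqueness lemma.** -/
theorem coeff_le_of_mask {w D d J v : ℕ} (hw : 0 < w) (hD : d < D) {F G : ℕ[X][X]}
    (hF : DegS d F) (hG : DegS d G) (hFJ : F.natDegree < J) (hGJ : G.natDegree < J)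
    (hF1 : pk 1 1 F < 2 ^ (w - 1)) (hG1 : pk 1 1 G < 2 ^ (w - 1))
    (hv : v + pk (2 ^ w) ((2 ^ w) ^ D) F = pk (2 ^ w) ((2 ^ w) ^ D) G)
    (hm : Nat.land v (mask w (D * J)) = 0) (i j : ℕ) :
    (F.coeff j).coeff i ≤ (G.coeff j).coeff i := by
  set B := 2 ^ w with hB
  have hBpos : 0 < B := by positivity
  have hB2 : 2 ^ (w - 1) + 2 ^ (w - 1) = B := by
    rw [hB, ← two_mul, ← pow_succ']
    congr 1
    omega
  rw [pk_eq_flat hD hF hFJ, pk_eq_flat hD hG hGJ] at hv
  have hGlt : ∀ k < D * J, fl D G k < B := fun k _ => by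
    have := coeff_le_pk_one G (k % D) (k / D)
    unfold fl
    (clear * - hG1 hB2 this; omega)
  have hvlt : v < B ^ (D * J) := by
    have := sum_lt B hBpos (fl D G) (D * J) hGlt
    omega
  have hvs := digits_sum B v (D * J)
  rw [Nat.mod_eq_of_lt hvlt] at hvs
  have hdig : ∀ k < D * J, v / B ^ k % B < 2 ^ (w - 1) := fun k hk => digit_lt hw hm hk
  have key := uniq B (D * J) (fun k => v / B ^ k % B + fl D F k) (fl D G)
    (fun k hk => by
      have h1 := hdig k hk
      have h2 := coeff_le_pk_one F (k % D) (k / D)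
      have h3 : fl D F k ≤ pk 1 1 F := h2
      show v / B ^ k % B + fl D F k < B
      omega) hGlt
    (by
      simp only [add_mul, Finset.sum_add_distrib]
      rw [hvs]
      exact hv)
  by_cases hj : j < J
  · by_cases hi : i < D
    · have hk : D * j + i < D * J := by
        calc D * j + i < D * j + D := by (clear * - hi; omega)
          _ = D * (j + 1) := by ring
          _ ≤ D * J := Nat.mul_le_mul_left _ hj
      have := key (D * j + i) hk
      have hDpos : 0 < D := lt_of_le_of_lt (Nat.zero_le _) hD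
      have e1 : (D * j + i) / D = j := by
        rw [Nat.mul_add_div hDpos, Nat.div_eq_of_lt hi, add_zero]
      have e2 : (D * j + i) % D = i := by
        rw [Nat.mul_add_mod, Nat.mod_eq_of_lt hi]
      simp only [fl, e1, e2] at this
      omega
    · rw [coeff_eq_zero_of_natDegree_lt (lt_of_le_of_lt (hF j) (by omega))]
      exact Nat.zero_le _
  · rw [coeff_eq_zero_of_natDegree_lt (by omega : F.natDegree < j)]
    simp

theorem evr_le {F G : ℕ[X][X]} (h : ∀ i j, (F.coeff j).coeff i ≤ (G.coeff j).coeff i)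
    {s t : ℝ} (hs : 0 ≤ s) (ht : 0 ≤ t) : evr s t F ≤ evr s t G := by
  set J := max F.natDegree G.natDegree + 1 with hJ
  have e : ∀ H : ℕ[X][X], H.natDegree < J → evr s t H
      = ∑ j ∈ Finset.range J, (eval₂ (Nat.castRingHom ℝ) s (H.coeff j)) * t ^ j := fun H hH => by
    simp only [evr, coe_eval₂RingHom]
    rw [eval₂_eq_sum_range' _ hH]
    simp only [coe_eval₂RingHom]
  rw [e F (by (clear * -; omega)), e G (by omega)]
  refine Finset.sum_le_sum fun j _ => mul_le_mul_of_nonneg_right ?_ (pow_nonneg ht j)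
  set n := max (F.coeff j).natDegree (G.coeff j).natDegree + 1 with hn
  rw [eval₂_eq_sum_range' (Nat.castRingHom ℝ) (by omega : (F.coeff j).natDegree < n),
    eval₂_eq_sum_range' (Nat.castRingHom ℝ) (by omega : (G.coeff j).natDegree < n)]
  refine Finset.sum_le_sum fun i _ => mul_le_mul_of_nonneg_right ?_ (pow_nonneg hs i)
  simpa only [eq_natCast, Nat.cast_le] using (Nat.cast_le (α := ℝ)).mpr (h i j)


/-! ## the box check -/

/-- positive parts -/
def posL (p : List ℤ) : List ℕ := p.map Int.toNat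
/-- negative parts -/
def negL (p : List ℤ) : List ℕ := p.map fun c => (-c).toNat

/-- inner kernel evaluation (integer coefficients, natural number `Z`) -/
def hZ (H : ℤ) (Z : ℕ) : ℕ → List ℤ → ℤ
  | _, [] => 0
  | 0, c :: _ => c
  | k + 1, c :: cs => c * ((Z ^ (k + 1) : ℕ) : ℤ) + H * hZ H Z k cs

/-- outer kernel evaluation -/
def hO (K : ℤ) (W : ℕ) (H : ℤ) (Z : ℕ) (d1 : ℕ) : ℕ → List (List ℤ) → ℤ
  | _, [] => 0
  | 0, p :: _ => hZ H Z d1 p
  | k + 1, p :: ps => hZ H Z d1 p * ((W ^ (k + 1) : ℕ) : ℤ) + K * hO K W H Z d1 k ps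

/-- the same with absolute values, natural numbers -/
def hZa (H Z : ℕ) : ℕ → List ℤ → ℕ
  | _, [] => 0
  | 0, c :: _ => c.natAbs
  | k + 1, c :: cs => c.natAbs * Z ^ (k + 1) + H * hZa H Z k cs

def hOa (K W H Z : ℕ) (d1 : ℕ) : ℕ → List (List ℤ) → ℕ
  | _, [] => 0
  | 0, p :: _ => hZa H Z d1 p
  | k + 1, p :: ps => hZa H Z d1 p * W ^ (k + 1) + K * hOa K W H Z d1 k ps

theorem hZ_eq (H Z : ℕ) : ∀ (k : ℕ) (p : List ℤ),
    hZ H Z k p = ((homG H Z k ((posL p).map (Nat.cast : ℕ → ℕ)) : ℕ) : ℤ)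
      - ((homG H Z k ((negL p).map (Nat.cast : ℕ → ℕ)) : ℕ) : ℤ)
  | _, [] => by simp only [hZ, posL, List.map_nil, homG, CharP.cast_eq_zero, negL, sub_self]
  | 0, c :: _ => by
    simp only [hZ, homG, posL, negL, List.map_cons, Nat.cast_id]
    omega
  | k + 1, c :: cs => by
    have ih := hZ_eq H Z k cs
    simp only [posL, negL] at ih
    simp only [hZ, homG, posL, negL, List.map_cons, Nat.cast_id, Nat.cast_add, Nat.cast_mul,
      Nat.cast_pow] at ih ⊢
    rw [ih]
    have hc : (c : ℤ) = (c.toNat : ℤ) - ((-c).toNat : ℤ) := by omega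
    conv_lhs => rw [hc]
    ring

theorem hZa_eq (H Z : ℕ) : ∀ (k : ℕ) (p : List ℤ),
    hZa H Z k p = homG H Z k ((posL p).map (Nat.cast : ℕ → ℕ))
      + homG H Z k ((negL p).map (Nat.cast : ℕ → ℕ))
  | _, [] => by simp [hZa, homG, posL, negL]
  | 0, c :: _ => by
    simp only [hZa, homG, posL, negL, List.map_cons, Nat.cast_id]
    omega
  | k + 1, c :: cs => by
    have ih := hZa_eq H Z k cs
    simp only [posL, negL] at ih
    simp only [hZa, homG, posL, negL, List.map_cons, Nat.cast_id] at ih ⊢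
    rw [ih]
    have hc : c.natAbs = c.toNat + (-c).toNat := by (clear * -; omega)
    rw [hc]
    ring

/-- the two polynomials (positive and negative part) of a box -/
noncomputable def boxP (h0 h1 hd k0 k1 kd d1 d2 : ℕ) (L : List (List ℕ)) : ℕ[X][X] :=
  homG (C (C (k0 : ℕ)) + C (C (k1 : ℕ)) * X) (C (C (kd : ℕ)) * (1 + X)) d2
    (L.map fun p => C (homG (C (h0 : ℕ) + C (h1 : ℕ) * X) (C (hd : ℕ) * (1 + X)) d1
      (p.map fun c => C c)))

theorem pk_boxP (B Q h0 h1 hd k0 k1 kd d1 d2 : ℕ) (L : List (List ℕ)) :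
    pk B Q (boxP h0 h1 hd k0 k1 kd d1 d2 L)
      = homG (k0 + k1 * Q) (kd * (1 + Q)) d2
          (L.map fun p => homG (h0 + h1 * B) (hd * (1 + B)) d1 (p.map (Nat.cast : ℕ → ℕ))) := by
  unfold boxP
  rw [map_homG (R := ℕ[X][X]) (S := ℕ) (pk B Q), List.map_map]
  congr 1
  · simp only [pk, eq_natCast, map_natCast, coe_eval₂RingHom, eval₂_add, eval₂_natCast, Nat.cast_id, eval₂_mul, eval₂_X, Nat.add_left_cancel_iff]
  · simp only [pk, eq_natCast, map_natCast, coe_eval₂RingHom, eval₂_mul, eval₂_natCast, Nat.cast_id, eval₂_add, eval₂_one, eval₂_X]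
  · refine List.map_congr_left fun p _ => ?_
    simp only [Function.comp, pk, coe_eval₂RingHom, eval₂_C]
    rw [map_homG, List.map_map]
    congr 1
    · simp only [eq_natCast, coe_evalRingHom, eval_add, eval_natCast, Nat.cast_id, eval_mul, eval_X, Nat.add_left_cancel_iff]
    · simp only [eq_natCast, coe_evalRingHom, eval_mul, eval_natCast, Nat.cast_id, eval_add, eval_one, eval_X]
    · refine List.map_congr_left fun c _ => ?_
      simp only [coe_evalRingHom, eq_natCast, Function.comp_apply, eval_natCast, Nat.cast_id]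

theorem evr_boxP (s t : ℝ) (h0 h1 hd k0 k1 kd d1 d2 : ℕ) (L : List (List ℕ)) :
    evr s t (boxP h0 h1 hd k0 k1 kd d1 d2 L)
      = homG (k0 + k1 * t : ℝ) (kd * (1 + t)) d2
          (L.map fun p => homG (h0 + h1 * s : ℝ) (hd * (1 + s)) d1
            (p.map (Nat.cast : ℕ → ℝ))) := by
  unfold boxP
  rw [map_homG (R := ℕ[X][X]) (S := ℝ) (evr s t), List.map_map]
  congr 1
  · simp only [evr, eq_natCast, map_natCast, coe_eval₂RingHom, eval₂_add, eval₂_natCast, eval₂_mul, eval₂_X]
  · simp only [evr, eq_natCast, map_natCast, coe_eval₂RingHom, eval₂_mul, eval₂_natCast, eval₂_add, eval₂_one, eval₂_X]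
  · refine List.map_congr_left fun p _ => ?_
    simp only [Function.comp, evr, coe_eval₂RingHom, eval₂_C]
    rw [← coe_eval₂RingHom, map_homG, List.map_map]
    congr 1
    · simp only [eq_natCast, coe_eval₂RingHom, eval₂_add, eval₂_natCast, eval₂_mul, eval₂_X]
    · simp only [eq_natCast, coe_eval₂RingHom, eval₂_mul, eval₂_natCast, eval₂_add, eval₂_one, eval₂_X]
    · refine List.map_congr_left fun c _ => ?_
      simp only [coe_eval₂RingHom, eq_natCast, Function.comp_apply, eval₂_natCast]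

theorem natDegree_homG {H Z : ℕ[X]} (hH : H.natDegree ≤ 1) (hZ' : Z.natDegree ≤ 1) :
    ∀ (k : ℕ) (gs : List ℕ[X]), (∀ g ∈ gs, g.natDegree ≤ 0) → (homG H Z k gs).natDegree ≤ k
  | _, [], _ => by simp [homG]
  | 0, g :: _, h => by simpa only [homG, nonpos_iff_eq_zero] using h g (by simp)
  | k + 1, g :: gs, h => by
    simp only [homG]
    refine (natDegree_add_le _ _).trans (max_le ?_ ?_)
    · refine natDegree_mul_le.trans ?_
      have h1 := h g (by simp)
      have h2 : (Z ^ (k + 1)).natDegree ≤ (k + 1) * 1 :=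
        natDegree_pow_le.trans (Nat.mul_le_mul_left _ hZ')
      omega
    · refine natDegree_mul_le.trans ?_
      have := natDegree_homG hH hZ' k gs fun g hg => h g (by simp [hg])
      omega

theorem natDegree_homG2 {H Z : ℕ[X][X]} (hH : H.natDegree ≤ 1) (hZ' : Z.natDegree ≤ 1) :
    ∀ (k : ℕ) (gs : List ℕ[X][X]), (∀ g ∈ gs, g.natDegree ≤ 0) → (homG H Z k gs).natDegree ≤ k
  | _, [], _ => by simp only [homG, natDegree_zero, zero_le]
  | 0, g :: _, h => by simpa only [homG, nonpos_iff_eq_zero] using h g (by simp)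
  | k + 1, g :: gs, h => by
    simp only [homG]
    refine (natDegree_add_le _ _).trans (max_le ?_ ?_)
    · refine natDegree_mul_le.trans ?_
      have h1 := h g (by simp)
      have h2 : (Z ^ (k + 1)).natDegree ≤ (k + 1) * 1 :=
        natDegree_pow_le.trans (Nat.mul_le_mul_left _ hZ')
      omega
    · refine natDegree_mul_le.trans ?_
      have := natDegree_homG2 hH hZ' k gs fun g hg => h g (by simp [hg])
      omega

theorem DegS_homG {d : ℕ} {K W : ℕ[X][X]} (hK : DegS 0 K) (hW : DegS 0 W) :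
    ∀ (k : ℕ) (gs : List ℕ[X][X]), (∀ g ∈ gs, DegS d g) → DegS d (homG K W k gs)
  | _, [], _ => fun j => by simp only [homG, coeff_zero, natDegree_zero, zero_le]
  | 0, g :: _, h => by simpa [homG] using h g (by simp)
  | k + 1, g :: gs, h => by
    simp only [homG]
    refine DegS.add ?_ ?_
    · exact (h g (by simp)).mul (hW.pow (k + 1))
    · have := hK.mul (DegS_homG hK hW k gs fun g hg => h g (by simp [hg]))
      rwa [zero_add] at this

theorem natDegree_lin (a b : ℕ) : (C a + C b * X : ℕ[X]).natDegree ≤ 1 := by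
  rw [add_comm]
  exact natDegree_linear_le

theorem natDegree_lin2 (a b : ℕ) : (C (C a) + C (C b) * X : ℕ[X][X]).natDegree ≤ 1 := by
  rw [add_comm]
  exact natDegree_linear_le

theorem natDegree_one_add (a : ℕ) : (C a * (1 + X) : ℕ[X]).natDegree ≤ 1 := by
  have : (C a * (1 + X) : ℕ[X]) = C a * X + C a := by ring
  rw [this]
  exact natDegree_linear_le

theorem natDegree_one_add2 (a : ℕ) : (C (C a) * (1 + X) : ℕ[X][X]).natDegree ≤ 1 := by
  have : (C (C a) * (1 + X) : ℕ[X][X]) = C (C a) * X + C (C a) := by ring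
  rw [this]
  exact natDegree_linear_le

theorem DegS_X : DegS 0 (X : ℕ[X][X]) := fun j => by
  rw [coeff_X]
  split <;> simp

theorem DegS_one : DegS 0 (1 : ℕ[X][X]) := fun j => by
  rw [coeff_one]
  split <;> simp

theorem DegS_CC (a : ℕ) : DegS 0 (C (C a) : ℕ[X][X]) := DegS.C (by simp only [eq_natCast, natDegree_natCast, Std.le_refl])

theorem DegS_boxP (h0 h1 hd k0 k1 kd d1 d2 : ℕ) (L : List (List ℕ)) :
    DegS d1 (boxP h0 h1 hd k0 k1 kd d1 d2 L) := by
  unfold boxP
  refine DegS_homG ?_ ?_ _ _ ?_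
  · have := (DegS_CC k1).mul DegS_X
    exact (DegS_CC k0).add this
  · exact (DegS_CC kd).mul (DegS_one.add DegS_X)
  · intro g hg
    obtain ⟨p, _, rfl⟩ := List.mem_map.mp hg
    refine DegS.C (natDegree_homG (natDegree_lin _ _) (natDegree_one_add _) _ _ ?_)
    intro g hg
    obtain ⟨c, _, rfl⟩ := List.mem_map.mp hg
    simp only [eq_natCast, natDegree_natCast, Std.le_refl]

theorem natDegree_boxP (h0 h1 hd k0 k1 kd d1 d2 : ℕ) (L : List (List ℕ)) :
    (boxP h0 h1 hd k0 k1 kd d1 d2 L).natDegree ≤ d2 := by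
  unfold boxP
  refine natDegree_homG2 (natDegree_lin2 _ _) (natDegree_one_add2 _) _ _ ?_
  intro g hg
  obtain ⟨p, _, rfl⟩ := List.mem_map.mp hg
  simp only [eq_natCast, natDegree_C, Std.le_refl]

theorem homG_map_sub (K W : ℤ) : ∀ (k : ℕ) (as bs : List ℤ), as.length = bs.length →
    homG K W k as - homG K W k bs = homG K W k (List.zipWith (· - ·) as bs)
  | _, [], [], _ => by simp [homG]
  | _, [], _ :: _, h => by simp at h
  | _, _ :: _, [], h => by simp at h
  | 0, a :: as, b :: bs, _ => by simp [homG]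
  | k + 1, a :: as, b :: bs, h => by
    have ih := homG_map_sub K W k as bs (by simpa using h)
    simp only [homG, List.zipWith_cons_cons]
    rw [← ih]
    ring

theorem hO_eq (K W H Z d1 : ℕ) : ∀ (k : ℕ) (L : List (List ℤ)),
    hO K W H Z d1 k L
      = ((homG K W k (L.map fun p => homG H Z d1 ((posL p).map (Nat.cast : ℕ → ℕ))) : ℕ) : ℤ)
      - ((homG K W k (L.map fun p => homG H Z d1 ((negL p).map (Nat.cast : ℕ → ℕ))) : ℕ) : ℤ)
  | _, [] => by simp only [hO, List.map_nil, homG, CharP.cast_eq_zero, sub_self]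
  | 0, c :: _ => by
    simp only [hO, homG, List.map_cons]
    exact hZ_eq H Z d1 c
  | k + 1, c :: cs => by
    have ih := hO_eq K W H Z d1 k cs
    simp only [hO, homG, List.map_cons]
    rw [ih, hZ_eq]
    push_cast
    ring

theorem hOa_eq (K W H Z d1 : ℕ) : ∀ (k : ℕ) (L : List (List ℤ)),
    hOa K W H Z d1 k L
      = homG K W k (L.map fun p => homG H Z d1 ((posL p).map (Nat.cast : ℕ → ℕ)))
      + homG K W k (L.map fun p => homG H Z d1 ((negL p).map (Nat.cast : ℕ → ℕ)))
  | _, [] => by simp only [hOa, List.map_nil, homG, add_zero]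
  | 0, c :: _ => by
    simp only [hOa, homG, List.map_cons]
    exact hZa_eq H Z d1 c
  | k + 1, c :: cs => by
    have ih := hOa_eq K W H Z d1 k cs
    simp only [hOa, homG, List.map_cons]
    rw [ih, hZa_eq]
    ring

/-- the kernel check of a box -/
def boxCheck (w d1 d2 : ℕ) (L : List (List ℤ)) (h0 h1 hd k0 k1 kd : ℕ) : Bool :=
  decide (0 < w) && decide (0 < hd) && decide (0 < kd) && decide (L.length ≤ d2 + 1) &&
  L.all (fun p => decide (p.length ≤ d1 + 1)) &&
  decide (hOa (k0 + k1) (2 * kd) (h0 + h1) (2 * hd) d1 d2 L + 1 < 2 ^ (w - 1)) &&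
  (match hO ((k0 + k1 * 2 ^ (w * (d1 + 1)) : ℕ) : ℤ) (kd * (1 + 2 ^ (w * (d1 + 1))))
      ((h0 + h1 * 2 ^ w : ℕ) : ℤ) (hd * (1 + 2 ^ w)) d1 d2 L with
    | Int.ofNat (m + 1) => Nat.beq (Nat.land m (mask w ((d1 + 1) * (d2 + 1)))) 0
    | _ => false)

/-- real evaluation of a coefficient list -/
def ev1 (x : ℝ) : List ℤ → ℝ
  | [] => 0
  | c :: cs => (c : ℝ) + x * ev1 x cs

/-- real evaluation of a bivariate coefficient list -/
def ev2 (x y : ℝ) : List (List ℤ) → ℝ
  | [] => 0
  | p :: ps => ev1 x p + y * ev2 x y ps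

theorem ev1_eq (x : ℝ) : ∀ p : List ℤ,
    ev1 x p = evG x ((posL p).map (Nat.cast : ℕ → ℝ)) - evG x ((negL p).map (Nat.cast : ℕ → ℝ))
  | [] => by simp only [ev1, posL, List.map_nil, evG, negL, sub_self]
  | c :: cs => by
    have ih := ev1_eq x cs
    simp only [posL, negL] at ih
    simp only [ev1, evG, posL, negL, List.map_cons]
    rw [ih]
    have hc : (c : ℝ) = ((c.toNat : ℕ) : ℝ) - (((-c).toNat : ℕ) : ℝ) := by
      have h : (c : ℤ) = (c.toNat : ℤ) - ((-c).toNat : ℤ) := by omega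
      have := congrArg (Int.cast : ℤ → ℝ) h
      push_cast at this
      exact_mod_cast this
    rw [hc]
    ring

theorem ev2_eq (x y : ℝ) : ∀ L : List (List ℤ),
    ev2 x y L = evG y (L.map fun p => evG x ((posL p).map (Nat.cast : ℕ → ℝ)))
      - evG y (L.map fun p => evG x ((negL p).map (Nat.cast : ℕ → ℝ)))
  | [] => by simp only [ev2, List.map_nil, evG, sub_self]
  | p :: ps => by
    have ih := ev2_eq x y ps
    simp only [ev2, evG, List.map_cons]
    rw [ih, ev1_eq]
    ring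

theorem evr_boxP_eq {h0 h1 hd k0 k1 kd d1 d2 : ℕ} {L : List (List ℤ)} (f : ℤ → ℕ)
    (hL : L.length ≤ d2 + 1) (hp : ∀ p ∈ L, p.length ≤ d1 + 1) {s t x y Z W : ℝ}
    (hZ0 : (hd : ℝ) * (1 + s) ≠ 0) (hW0 : (kd : ℝ) * (1 + t) ≠ 0)
    (hx : (h0 + h1 * s) / (hd * (1 + s)) = x) (hy : (k0 + k1 * t) / (kd * (1 + t)) = y)
    (hZ : Z = hd * (1 + s)) (hW : W = kd * (1 + t)) :
    evr s t (boxP h0 h1 hd k0 k1 kd d1 d2 (L.map fun p => p.map f))
      = W ^ d2 * Z ^ d1 * evG y (L.map fun p => evG x ((p.map f).map (Nat.cast : ℕ → ℝ))) := by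
  subst hZ hW hx hy
  rw [evr_boxP, homG_eq hW0 _ _ (by simpa only [List.map_map, List.length_map] using hL), mul_assoc]
  congr 1
  have e : ∀ (L : List (List ℤ)), (∀ p ∈ L, p.length ≤ d1 + 1) → ∀ y : ℝ,
      evG y ((L.map fun p => p.map f).map fun p => homG (h0 + h1 * s : ℝ) (hd * (1 + s)) d1
        (p.map (Nat.cast : ℕ → ℝ)))
      = (hd * (1 + s) : ℝ) ^ d1 * evG y (L.map fun p =>
          evG ((h0 + h1 * s) / (hd * (1 + s))) ((p.map f).map (Nat.cast : ℕ → ℝ))) := by
    intro L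
    induction L with
    | nil => intro _ y; simp only [List.map_nil, evG, List.map_map, mul_zero]
    | cons p ps ih =>
      intro hp y
      simp only [List.map_cons, evG]
      rw [ih (fun q hq => hp q (by simp [hq])) y,
        homG_eq hZ0 _ _ (by simpa only [List.map_map, List.length_map] using hp p (by simp))]
      ring
  exact e L hp _

/-- **Soundness of the box check.** -/
theorem boxCheck_sound {w d1 d2 : ℕ} {L : List (List ℤ)} {h0 h1 hd k0 k1 kd : ℕ}
    (hc : boxCheck w d1 d2 L h0 h1 hd k0 k1 kd = true) {x y : ℝ}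
    (hx0 : (h0 : ℝ) ≤ hd * x) (hx1 : hd * x < h1) (hy0 : (k0 : ℝ) ≤ kd * y)
    (hy1 : kd * y < k1) : 0 < ev2 x y L := by
  simp only [boxCheck, Bool.and_eq_true, decide_eq_true_eq, List.all_eq_true] at hc
  obtain ⟨⟨⟨⟨⟨⟨hw, hhd⟩, hkd⟩, hlen⟩, hrow⟩, hbd⟩, hm⟩ := hc
  set P := boxP h0 h1 hd k0 k1 kd d1 d2 (L.map posL) with hP
  set N := boxP h0 h1 hd k0 k1 kd d1 d2 (L.map negL) with hN
  have hB : 2 ^ (w * (d1 + 1)) = (2 ^ w) ^ (d1 + 1) := pow_mul _ _ _
  -- packed values
  have hval : hO ((k0 + k1 * 2 ^ (w * (d1 + 1)) : ℕ) : ℤ) (kd * (1 + 2 ^ (w * (d1 + 1))))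
      ((h0 + h1 * 2 ^ w : ℕ) : ℤ) (hd * (1 + 2 ^ w)) d1 d2 L
      = (pk (2 ^ w) ((2 ^ w) ^ (d1 + 1)) P : ℤ) - (pk (2 ^ w) ((2 ^ w) ^ (d1 + 1)) N : ℤ) := by
    rw [hO_eq, hP, hN, pk_boxP, pk_boxP, hB, List.map_map, List.map_map]
    rfl
  have hone : hOa (k0 + k1) (2 * kd) (h0 + h1) (2 * hd) d1 d2 L = pk 1 1 P + pk 1 1 N := by
    rw [hOa_eq, hP, hN, pk_boxP, pk_boxP, List.map_map, List.map_map]
    have e1 : k0 + k1 * 1 = k0 + k1 := by ring
    have e2 : kd * (1 + 1) = 2 * kd := by ring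
    have e3 : h0 + h1 * 1 = h0 + h1 := by ring
    have e4 : hd * (1 + 1) = 2 * hd := by ring
    rw [e1, e2, e3, e4]
    rfl
  rw [hone] at hbd
  rw [hval] at hm
  generalize hv : (pk (2 ^ w) ((2 ^ w) ^ (d1 + 1)) P : ℤ)
    - (pk (2 ^ w) ((2 ^ w) ^ (d1 + 1)) N : ℤ) = v at hm
  match v, hm, hv with
  | Int.ofNat (m + 1), hm, hv =>
    have hm0 : Nat.land m (mask w ((d1 + 1) * (d2 + 1))) = 0 := Nat.eq_of_beq_eq_true hm
    have hv' : m + pk (2 ^ w) ((2 ^ w) ^ (d1 + 1)) (N + 1) = pk (2 ^ w) ((2 ^ w) ^ (d1 + 1)) P := by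
      rw [map_add, map_one]
      have : (Int.ofNat (m + 1) : ℤ) = (m : ℤ) + 1 := by
        simp
      rw [this] at hv
      (clear x y hx0 hx1 hy0 hy1 hrow hlen hkd hw hhd hP hbd hN hB hval hone hm hm0 this; omega)
    have hN1 : pk 1 1 (N + 1) = pk 1 1 N + 1 := by rw [map_add, map_one]
    have hle := coeff_le_of_mask (F := N + 1) (G := P) (J := d2 + 1) hw (Nat.lt_succ_self d1)
      ((DegS_boxP _ _ _ _ _ _ _ _ _).add (DegS_one.mono (Nat.zero_le _)))
      (DegS_boxP _ _ _ _ _ _ _ _ _)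
      (Nat.lt_succ_of_le ((natDegree_add_le _ _).trans
        (max_le (natDegree_boxP _ _ _ _ _ _ _ _ _) (by simp only [natDegree_one, zero_le]))))
      (Nat.lt_succ_of_le (natDegree_boxP _ _ _ _ _ _ _ _ _))
      (by (clear * - hbd hone hN1; omega)) (by omega) hv' hm0
    have hxh : 0 < (h1 : ℝ) - hd * x := by linarith only [hx1]
    have hyk : 0 < (k1 : ℝ) - kd * y := by linarith only [hy1]
    set s : ℝ := (hd * x - h0) / (h1 - hd * x) with hs
    set t : ℝ := (kd * y - k0) / (k1 - kd * y) with ht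
    have hs0 : 0 ≤ s := div_nonneg (by linarith only [hx0]) hxh.le
    have ht0 : 0 ≤ t := div_nonneg (by linarith only [hy0]) hyk.le
    have hkey := evr_le hle hs0 ht0
    rw [map_add, map_one] at hkey
    have hhd' : (0 : ℝ) < hd := by exact_mod_cast hhd
    have hkd' : (0 : ℝ) < kd := by exact_mod_cast hkd
    have hZ0 : 0 < (hd : ℝ) * (1 + s) := by (clear * - hhd hx0 hx1; positivity)
    have hW0 : 0 < (kd : ℝ) * (1 + t) := by (clear * - hkd hy0 hy1; positivity)
    have hh01 : 0 < (h1 : ℝ) - h0 := by linarith only [hx0, hx1]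
    have hk01 : 0 < (k1 : ℝ) - k0 := by linarith only [hy0, hy1]
    have hxe : ((h0 : ℝ) + h1 * s) / (hd * (1 + s)) = x := by
      have h1s : 1 + s = (h1 - h0) / (h1 - hd * x) := by
        rw [hs]; field_simp; ring
      rw [h1s, hs]
      field_simp
      ring
    have hye : ((k0 : ℝ) + k1 * t) / (kd * (1 + t)) = y := by
      have h1s : 1 + t = (k1 - k0) / (k1 - kd * y) := by
        rw [ht]; field_simp; ring
      rw [h1s, ht]
      field_simp
      ring
    have eP := evr_boxP_eq (L := L) Int.toNat hlen hrow hZ0.ne' hW0.ne' hxe hye rfl rfl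
    have eN := evr_boxP_eq (L := L) (fun c => (-c).toNat) hlen hrow hZ0.ne' hW0.ne' hxe hye rfl rfl
    have eP' : evr s t P = _ := eP
    have eN' : evr s t N = _ := eN
    rw [eP', eN'] at hkey
    rw [ev2_eq]
    have hpos : 0 < ((kd : ℝ) * (1 + t)) ^ d2 * ((hd : ℝ) * (1 + s)) ^ d1 := by (clear * - hkd hy0 hy1 hhd hx0 hx1; positivity)
    have h2 : 0 < ((kd : ℝ) * (1 + t)) ^ d2 * ((hd : ℝ) * (1 + s)) ^ d1 *
        (evG y (L.map fun p => evG x ((posL p).map (Nat.cast : ℕ → ℝ)))
        - evG y (L.map fun p => evG x ((negL p).map (Nat.cast : ℕ → ℝ)))) := by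
      have : ∀ a b c : ℝ, a * b + 1 ≤ a * c → 0 < a * (c - b) := fun a b c h => by
        rw [mul_sub]; linarith only [h]
      exact this _ _ _ hkey
    exact (mul_pos_iff_of_pos_left hpos).mp h2

end BoxPos
end P100
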