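import Vale.Agent.P100.Cert.BoxPos

/-!
# Polynomial expressions, kernel-checked polynomial identities, and box trees

`Ex` are expressions built from explicit integer coefficient lists.  Two expressions are equal as
bivariate polynomials if their values at one large integer point agree (Kronecker substitution)
and the point is large compared with the coefficients.  `treeCheck` certifies positivity of a
coefficient list on (the part inside a region of) a rectangle by a binary subdivision tree.
-/

open Polynomial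

namespace P100
namespace BoxPos

/-- polynomial expressions in two variables -/
inductive Ex
  | poly (L : List (List ℤ))
  | add (a b : Ex)
  | sub (a b : Ex)
  | mul (a b : Ex)

/-- packed value of a row -/
def p1 (B : ℤ) : List ℤ → ℤ
  | [] => 0
  | c :: cs => c + B * p1 B cs

/-- packed value of a coefficient list -/
def p2 (B Q : ℤ) : List (List ℤ) → ℤ
  | [] => 0
  | p :: ps => p1 B p + Q * p2 B Q ps

/-- sum of absolute values of the coefficients -/
def n1 : List ℤ → ℕ
  | [] => 0
  | c :: cs => c.natAbs + n1 cs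

def n2 : List (List ℤ) → ℕ
  | [] => 0
  | p :: ps => n1 p + n2 ps

/-- maximal row length -/
def ml : List (List ℤ) → ℕ
  | [] => 0
  | p :: ps => max p.length (ml ps)

namespace Ex

/-- real value -/
noncomputable def ev (x y : ℝ) : Ex → ℝ
  | poly L => ev2 x y L
  | add a b => ev x y a + ev x y b
  | sub a b => ev x y a - ev x y b
  | mul a b => ev x y a * ev x y b

/-- packed integer value -/
def pz (B Q : ℤ) : Ex → ℤ
  | poly L => p2 B Q L
  | add a b => pz B Q a + pz B Q b
  | sub a b => pz B Q a - pz B Q b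
  | mul a b => pz B Q a * pz B Q b

/-- coefficient bound -/
def nb : Ex → ℕ
  | poly L => n2 L
  | add a b => nb a + nb b
  | sub a b => nb a + nb b
  | mul a b => nb a * nb b

/-- degree bound in the first variable -/
def ds : Ex → ℕ
  | poly L => ml L
  | add a b => max (ds a) (ds b)
  | sub a b => max (ds a) (ds b)
  | mul a b => ds a + ds b

end Ex

/-- the polynomial of a list with natural coefficients -/
noncomputable def polyP (L : List (List ℕ)) : ℕ[X][X] :=
  evG X (L.map fun p => C (evG X (p.map fun c => C c)))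

theorem map_evG {R S : Type*} [CommSemiring R] [CommSemiring S] (f : R →+* S) (x : R) :
    ∀ gs : List R, f (evG x gs) = evG (f x) (gs.map f)
  | [] => by simp [evG]
  | g :: gs => by
    simp only [evG, map_add, map_mul, map_evG f x gs, List.map_cons]

theorem pk_polyP (B Q : ℕ) (L : List (List ℕ)) :
    pk B Q (polyP L) = evG Q (L.map fun p => evG B (p.map (Nat.cast : ℕ → ℕ))) := by
  unfold polyP
  rw [map_evG (R := ℕ[X][X]) (S := ℕ) (pk B Q), List.map_map]
  congr 1
  · simp [pk]
  · refine List.map_congr_left fun p _ => ?_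
    simp only [Function.comp, pk, coe_eval₂RingHom, eval₂_C]
    rw [map_evG, List.map_map]
    congr 1
    · simp
    · refine List.map_congr_left fun c _ => ?_
      simp

theorem evr_polyP (s t : ℝ) (L : List (List ℕ)) :
    evr s t (polyP L) = evG t (L.map fun p => evG s (p.map (Nat.cast : ℕ → ℝ))) := by
  unfold polyP
  rw [map_evG (R := ℕ[X][X]) (S := ℝ) (evr s t), List.map_map]
  congr 1
  · simp [evr]
  · refine List.map_congr_left fun p _ => ?_
    simp only [Function.comp, evr, coe_eval₂RingHom, eval₂_C]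
    rw [← coe_eval₂RingHom, map_evG, List.map_map]
    congr 1
    · simp
    · refine List.map_congr_left fun c _ => ?_
      simp

theorem natDegree_evG : ∀ gs : List ℕ[X], (∀ g ∈ gs, g.natDegree ≤ 0) →
    (evG (X : ℕ[X]) gs).natDegree ≤ gs.length
  | [], _ => by simp [evG]
  | g :: gs, h => by
    simp only [evG, List.length_cons]
    refine (natDegree_add_le _ _).trans (max_le ?_ ?_)
    · have := h g (by simp)
      omega
    · refine natDegree_mul_le.trans ?_
      have := natDegree_evG gs fun g hg => h g (by simp [hg])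
      have h2 : (X : ℕ[X]).natDegree ≤ 1 := natDegree_X_le
      omega

theorem DegS_evG {d : ℕ} : ∀ gs : List ℕ[X][X], (∀ g ∈ gs, DegS d g) →
    DegS d (evG (X : ℕ[X][X]) gs)
  | [], _ => fun j => by simp [evG]
  | g :: gs, h => by
    simp only [evG]
    refine DegS.add (h g (by simp)) ?_
    have := DegS_X.mul (DegS_evG gs fun g hg => h g (by simp [hg]))
    rwa [zero_add] at this

theorem DegS_polyP (f : ℤ → ℕ) (L : List (List ℤ)) :
    DegS (ml L) (polyP (L.map fun p => p.map f)) := by
  unfold polyP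
  refine DegS_evG _ ?_
  intro g hg
  obtain ⟨p, hp, rfl⟩ := List.mem_map.mp hg
  obtain ⟨q, hq, rfl⟩ := List.mem_map.mp hp
  refine DegS.C ((natDegree_evG _ ?_).trans ?_)
  · intro g hg
    obtain ⟨c, _, rfl⟩ := List.mem_map.mp hg
    simp
  · simp only [List.length_map]
    clear hg hp
    induction L with
    | nil => simp at hq
    | cons a L ih =>
      simp only [ml]
      rcases List.mem_cons.mp hq with rfl | h
      · exact le_max_left _ _
      · exact (ih h).trans (le_max_right _ _)

theorem p1_eq (B : ℕ) : ∀ p : List ℤ,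
    p1 B p = ((evG B ((posL p).map (Nat.cast : ℕ → ℕ)) : ℕ) : ℤ)
      - ((evG B ((negL p).map (Nat.cast : ℕ → ℕ)) : ℕ) : ℤ)
  | [] => by simp [p1, evG, posL, negL]
  | c :: cs => by
    have ih := p1_eq B cs
    simp only [posL, negL] at ih
    simp only [p1, evG, posL, negL, List.map_cons, Nat.cast_id] at ih ⊢
    rw [ih]
    push_cast
    have hc : (c : ℤ) = (c.toNat : ℤ) - ((-c).toNat : ℤ) := by omega
    conv_lhs => rw [hc]
    ring

theorem p2_eq (B Q : ℕ) : ∀ L : List (List ℤ),
    p2 B Q L = ((pk B Q (polyP (L.map posL)) : ℕ) : ℤ) - ((pk B Q (polyP (L.map negL)) : ℕ) : ℤ)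
  | [] => by simp [p2, pk_polyP, evG]
  | p :: ps => by
    have ih := p2_eq B Q ps
    rw [pk_polyP, pk_polyP] at ih ⊢
    simp only [p2, evG, List.map_cons]
    rw [ih, p1_eq]
    push_cast
    ring

theorem n1_eq : ∀ p : List ℤ,
    n1 p = evG 1 ((posL p).map (Nat.cast : ℕ → ℕ)) + evG 1 ((negL p).map (Nat.cast : ℕ → ℕ))
  | [] => by simp [n1, evG, posL, negL]
  | c :: cs => by
    have ih := n1_eq cs
    simp only [posL, negL] at ih
    simp only [n1, evG, posL, negL, List.map_cons, Nat.cast_id] at ih ⊢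
    rw [ih]
    omega

theorem n2_eq : ∀ L : List (List ℤ),
    n2 L = pk 1 1 (polyP (L.map posL)) + pk 1 1 (polyP (L.map negL))
  | [] => by simp [n2, pk_polyP, evG]
  | p :: ps => by
    have ih := n2_eq ps
    rw [pk_polyP, pk_polyP] at ih ⊢
    simp only [n2, evG, List.map_cons]
    rw [ih, n1_eq]
    ring

namespace Ex

/-- positive and negative part polynomials -/
noncomputable def pn : Ex → ℕ[X][X] × ℕ[X][X]
  | poly L => (polyP (L.map posL), polyP (L.map negL))
  | add a b => ((pn a).1 + (pn b).1, (pn a).2 + (pn b).2)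
  | sub a b => ((pn a).1 + (pn b).2, (pn a).2 + (pn b).1)
  | mul a b => ((pn a).1 * (pn b).1 + (pn a).2 * (pn b).2,
      (pn a).1 * (pn b).2 + (pn a).2 * (pn b).1)

theorem ev_eq (x y : ℝ) : ∀ e : Ex, ev x y e = evr x y (pn e).1 - evr x y (pn e).2
  | poly L => by
    simp only [ev, ev2_eq, pn, evr_polyP, List.map_map]
    rfl
  | add a b => by
    simp only [ev, pn, map_add, ev_eq x y a, ev_eq x y b]; ring
  | sub a b => by
    simp only [ev, ev_eq x y a, ev_eq x y b, pn, map_add]; ring
  | mul a b => by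
    simp only [ev, pn, map_add, map_mul, ev_eq x y a, ev_eq x y b]; ring

theorem pz_eq (B Q : ℕ) : ∀ e : Ex,
    pz B Q e = ((pk B Q (pn e).1 : ℕ) : ℤ) - ((pk B Q (pn e).2 : ℕ) : ℤ)
  | poly L => by
    simp only [pz, pn]
    exact p2_eq B Q L
  | add a b => by
    simp only [pz, pn, map_add, pz_eq B Q a, pz_eq B Q b]; push_cast; ring
  | sub a b => by
    simp only [pz, pz_eq B Q a, pz_eq B Q b, pn, map_add]; push_cast; ring
  | mul a b => by
    simp only [pz, pn, map_add, map_mul, pz_eq B Q a, pz_eq B Q b]; push_cast; ring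

theorem nb_eq : ∀ e : Ex, nb e = pk 1 1 (pn e).1 + pk 1 1 (pn e).2
  | poly L => by
    simp only [nb, pn]
    exact n2_eq L
  | add a b => by
    simp only [nb, nb_eq a, nb_eq b, pn, map_add]; ring
  | sub a b => by
    simp only [nb, nb_eq a, nb_eq b, pn, map_add]; ring
  | mul a b => by
    simp only [nb, pn, map_add, map_mul, nb_eq a, nb_eq b]; ring

theorem ds_pn : ∀ e : Ex, DegS (ds e) (pn e).1 ∧ DegS (ds e) (pn e).2
  | poly L => ⟨DegS_polyP Int.toNat L, DegS_polyP (fun c => (-c).toNat) L⟩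
  | add a b => by
    obtain ⟨h1, h2⟩ := ds_pn a
    obtain ⟨h3, h4⟩ := ds_pn b
    exact ⟨(h1.mono (le_max_left _ _)).add (h3.mono (le_max_right _ _)),
      (h2.mono (le_max_left _ _)).add (h4.mono (le_max_right _ _))⟩
  | sub a b => by
    obtain ⟨h1, h2⟩ := ds_pn a
    obtain ⟨h3, h4⟩ := ds_pn b
    exact ⟨(h1.mono (le_max_left _ _)).add (h4.mono (le_max_right _ _)),
      (h2.mono (le_max_left _ _)).add (h3.mono (le_max_right _ _))⟩
  | mul a b => by
    obtain ⟨h1, h2⟩ := ds_pn a
    obtain ⟨h3, h4⟩ := ds_pn b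
    exact ⟨(h1.mul h3).add (h2.mul h4), (h1.mul h4).add (h2.mul h3)⟩

/-- the kernel check that an expression is the zero polynomial -/
def isZero (w : ℕ) (e : Ex) : Bool :=
  decide (0 < w) && decide (nb e < 2 ^ (w - 1)) &&
    decide (pz ((2 ^ w : ℕ) : ℤ) ((2 ^ (w * (ds e + 1)) : ℕ) : ℤ) e = 0)

theorem isZero_sound {w : ℕ} {e : Ex} (h : isZero w e = true) (x y : ℝ) : ev x y e = 0 := by
  simp only [isZero, Bool.and_eq_true, decide_eq_true_eq] at h
  obtain ⟨⟨hw, hnb⟩, hz⟩ := h
  rw [pz_eq, pow_mul, sub_eq_zero, Nat.cast_inj] at hz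
  rw [nb_eq] at hnb
  obtain ⟨h1, h2⟩ := ds_pn e
  set J := max (pn e).1.natDegree (pn e).2.natDegree + 1 with hJ
  have hland : Nat.land 0 (mask w ((ds e + 1) * J)) = 0 := Nat.zero_and _
  have l1 := coeff_le_of_mask (v := 0) (J := J) hw (Nat.lt_succ_self _) h1 h2 (by omega)
    (by omega) (by omega) (by omega) (by rw [zero_add]; exact hz) hland
  have l2 := coeff_le_of_mask (v := 0) (J := J) hw (Nat.lt_succ_self _) h2 h1 (by omega)
    (by omega) (by omega) (by omega) (by rw [zero_add]; exact hz.symm) hland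
  have heq : (pn e).1 = (pn e).2 := by
    ext j i
    exact le_antisymm (l1 i j) (l2 i j)
  rw [ev_eq, heq, sub_self]

/-- an expression equals a factor list times a coefficient list -/
theorem eq_of_isZero {w : ℕ} {e : Ex} {F L : List (List ℤ)}
    (h : isZero w (sub e (mul (poly F) (poly L))) = true) (x y : ℝ) :
    ev x y e = ev2 x y F * ev2 x y L := by
  have := isZero_sound h x y
  simp only [ev] at this
  linarith

end Ex

/-! ## subdivision trees -/

/-- subdivision trees: `leaf w` = Bernstein check with `w` bits; `out w` = the box is outside the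
region -/
inductive Tree
  | leaf (w : ℕ)
  | out (w : ℕ)
  | sx (l r : Tree)
  | sy (l r : Tree)

/-- the check of a tree: `L` is positive on the part of the box where `Lo ≤ 0` -/
def treeCheck (d1 d2 : ℕ) (L : List (List ℤ)) (o1 o2 : ℕ) (Lo : List (List ℤ)) :
    Tree → ℕ → ℕ → ℕ → ℕ → ℕ → ℕ → Bool
  | .leaf w, h0, h1, hd, k0, k1, kd => boxCheck w d1 d2 L h0 h1 hd k0 k1 kd
  | .out w, h0, h1, hd, k0, k1, kd => boxCheck w o1 o2 Lo h0 h1 hd k0 k1 kd
  | .sx l r, h0, h1, hd, k0, k1, kd =>
    treeCheck d1 d2 L o1 o2 Lo l (2 * h0) (h0 + h1) (2 * hd) k0 k1 kd &&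
      treeCheck d1 d2 L o1 o2 Lo r (h0 + h1) (2 * h1) (2 * hd) k0 k1 kd
  | .sy l r, h0, h1, hd, k0, k1, kd =>
    treeCheck d1 d2 L o1 o2 Lo l h0 h1 hd (2 * k0) (k0 + k1) (2 * kd) &&
      treeCheck d1 d2 L o1 o2 Lo r h0 h1 hd (k0 + k1) (2 * k1) (2 * kd)

theorem treeCheck_sound {d1 d2 o1 o2 : ℕ} {L Lo : List (List ℤ)} {x y : ℝ}
    (hreg : ev2 x y Lo ≤ 0) : ∀ (t : Tree) (h0 h1 hd k0 k1 kd : ℕ),
    treeCheck d1 d2 L o1 o2 Lo t h0 h1 hd k0 k1 kd = true →
    (h0 : ℝ) ≤ hd * x → hd * x < h1 → (k0 : ℝ) ≤ kd * y → kd * y < k1 → 0 < ev2 x y L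
  | .leaf w, h0, h1, hd, k0, k1, kd, h, a1, a2, a3, a4 => boxCheck_sound h a1 a2 a3 a4
  | .out w, h0, h1, hd, k0, k1, kd, h, a1, a2, a3, a4 =>
    absurd (boxCheck_sound h a1 a2 a3 a4) (not_lt.mpr hreg)
  | .sx l r, h0, h1, hd, k0, k1, kd, h, a1, a2, a3, a4 => by
    rw [treeCheck, Bool.and_eq_true] at h
    rcases lt_or_ge (2 * hd * x : ℝ) (h0 + h1) with hlt | hge
    · exact treeCheck_sound hreg l _ _ _ _ _ _ h.1 (by push_cast; linarith)
        (by push_cast; linarith) a3 a4
    · exact treeCheck_sound hreg r _ _ _ _ _ _ h.2 (by push_cast; linarith)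
        (by push_cast; linarith) a3 a4
  | .sy l r, h0, h1, hd, k0, k1, kd, h, a1, a2, a3, a4 => by
    rw [treeCheck, Bool.and_eq_true] at h
    rcases lt_or_ge (2 * kd * y : ℝ) (k0 + k1) with hlt | hge
    · exact treeCheck_sound hreg l _ _ _ _ _ _ h.1 a1 a2 (by push_cast; linarith)
        (by push_cast; linarith)
    · exact treeCheck_sound hreg r _ _ _ _ _ _ h.2 a1 a2 (by push_cast; linarith)
        (by push_cast; linarith)

end BoxPos
end P100
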